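import Vale.Agent.Lib.P154.Neg.LP.Base

/-!
The data of a certificate for a restricted range of `theta`, with all its checks.
-/

namespace Vale.Agent.Lib.P154.Neg.B4500

open Vale.Agent.Lib.P154.Neg.Kron Vale.Agent.Lib.P154.Neg Vale.Agent.Lib.P154.Neg.Cst

def tX_1 : CT := (.leaf [130, 6371, 312180] [48, 48, 48])
def tX_3 : CT := (.s01 (.leaf [169, 8282, 405819] [48, 48, 48]) (.s12 (.leaf [171, 8380, 410621] [48, 48, 48]) (.leaf [181, 8870, 434631] [48, 48, 48])))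
def tX_4 : CT := (.s02 (.leaf [170, 8331, 408220] [48, 48, 48]) (.s12 (.leaf [181, 8870, 434631] [48, 48, 48]) (.s02 (.leaf [196, 9605, 470646] [48, 48, 48]) (.leaf [182, 8919, 437032] [48, 48, 48]))))
def tX_2 : CT := .s12 tX_3 tX_4
def tX_0 : CT := .s02 tX_1 tX_2
def tY1_2 : CT := (.leaf [592, 29009, 1421442] [48, 48, 48])
def tY1_3 : CT := (.leaf [609, 29842, 1462259] [48, 48, 48])
def tY1_1 : CT := .s02 tY1_2 tY1_3
def tY1_4 : CT := (.leaf [586, 28715, 1407036] [48, 48, 48])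
def tY1_0 : CT := .s02 tY1_1 tY1_4
def tY2_0 : CT := (.leaf [429, 15874, 587339] [36, 36, 36])
def tQ1_1 : BT := (.split 1 (2) (.split 3 (6) (.leaf [386, 8493, 93424, 1494785] [21, 10, 15, 6]) (.leaf [387, 8515, 93666, 1498657] [21, 10, 15, 6])) (.split 3 (6) (.split 3 (3) (.leaf [386, 8493, 93424, 1494785] [21, 10, 15, 6]) (.leaf [386, 8493, 93424, 1494785] [21, 10, 15, 6])) (.leaf [387, 8515, 93666, 1498657] [21, 10, 15, 6])))
def tQ1_2 : BT := (.leaf [388, 8537, 93908, 1502529] [21, 10, 15, 6])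
def tQ1_0 : BT := .split 3 (12) tQ1_1 tQ1_2
def tQ3_2 : BT := (.split 0 (338) (.split 3 (4) (.leaf [396, 6337, 69708, 1115329] [15, 10, 15, 6]) (.split 1 (1) (.split 0 (261) (.leaf [397, 6353, 69884, 1118145] [15, 10, 15, 6]) (.leaf [397, 6353, 69884, 1118145] [15, 10, 15, 6])) (.leaf [397, 6353, 69884, 1118145] [15, 10, 15, 6]))) (.leaf [397, 6353, 69884, 1118145] [15, 10, 15, 6]))
def tQ3_3 : BT := (.leaf [399, 6385, 70236, 1123777] [15, 10, 15, 6])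
def tQ3_1 : BT := .split 0 (492) tQ3_2 tQ3_3
def tQ3_6 : BT := (.split 3 (4) (.split 0 (338) (.split 3 (2) (.leaf [396, 6337, 69708, 1115329] [15, 10, 15, 6]) (.leaf [396, 6337, 69708, 1115329] [15, 10, 15, 6])) (.leaf [397, 6353, 69884, 1118145] [15, 10, 15, 6])) (.leaf [397, 6353, 69884, 1118145] [15, 10, 15, 6]))
def tQ3_7 : BT := (.split 3 (4) (.split 0 (338) (.split 3 (2) (.split 3 (1) (.leaf [396, 6337, 69708, 1115329] [15, 10, 15, 6]) (.leaf [396, 6337, 69708, 1115329] [15, 10, 15, 6])) (.leaf [397, 6353, 69884, 1118145] [15, 10, 15, 6])) (.leaf [398, 6369, 70060, 1120961] [15, 10, 15, 6])) (.leaf [398, 6369, 70060, 1120961] [15, 10, 15, 6]))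
def tQ3_5 : BT := .split 1 (3) tQ3_6 tQ3_7
def tQ3_8 : BT := (.leaf [400, 6401, 70412, 1126593] [15, 10, 15, 6])
def tQ3_4 : BT := .split 0 (492) tQ3_5 tQ3_8
def tQ3_0 : BT := .split 1 (2) tQ3_1 tQ3_4

/-- the data -/
def C : Cst where
  A := ⟨3, 3, 0, 3, 2, 1⟩
  a := (424, 45)
  b := (148, 5)
  c := (156, 5)
  r1 := (3, 4)
  r2 := (11, 12)
  rho1 := (0, 1)
  rho2 := (11, 12)
  g := (9, 25000)
  er := (1, 2)
  kap := (0, 1)
  thm := (2, 25)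
  t1 := (89, 200)
  t2 := (9, 20)
  m0 := (29, 60)
  kp0 := (3, 2)
  W := (.add (.add (.add (.add (.add (.add (.add (.mul (.rat (-23611) 1000000) (.pow (.var 1) 2)) (.mul (.rat (1) 2) (.var 0))) (.mul (.mul (.rat (6317) 250000) (.var 0)) (.var 1))) (.mul (.mul (.rat (-6579) 1000000) (.var 0)) (.pow (.var 1) 2))) (.mul (.rat (24329) 1000000) (.pow (.var 0) 2))) (.mul (.mul (.rat (-1789) 500000) (.pow (.var 0) 2)) (.var 1))) (.mul (.rat (-51) 20000) (.pow (.var 0) 3))) (.mul (.rat (337) 100000) (.pow (.var 0) 4)))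
  V1h := (.add (.add (.add (.add (.add (.add (.add (.add (.mul (.rat (-1) 16) (.var 1)) (.mul (.rat (-147127) 10000000) (.pow (.var 1) 2))) (.mul (.rat (1) 8) (.var 0))) (.mul (.mul (.rat (-9233) 500000) (.var 0)) (.var 1))) (.mul (.mul (.rat (259411) 5000000) (.var 0)) (.pow (.var 1) 2))) (.mul (.rat (34323) 2000000) (.pow (.var 0) 2))) (.mul (.mul (.rat (-11051) 625000) (.pow (.var 0) 2)) (.var 1))) (.mul (.rat (2427) 400000) (.pow (.var 0) 3))) (.mul (.rat (311) 2000000) (.pow (.var 0) 4)))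
  V2h := (.add (.add (.add (.add (.mul (.rat (1) 216) (.var 1)) (.mul (.rat (-48201) 10000000) (.pow (.var 1) 2))) (.mul (.mul (.rat (14403) 10000000) (.var 0)) (.var 1))) (.mul (.rat (-367) 625000) (.pow (.var 0) 2))) (.mul (.rat (167) 312500) (.pow (.var 0) 3)))
  Xi := (.add (.add (.add (.rat (61) 15) (.mul (.rat (-6718327) 1000000) (.var 0))) (.mul (.rat (6094183) 500000) (.pow (.var 0) 2))) (.mul (.rat (-50394711) 1000000) (.pow (.var 0) 3)))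
  Ek := (.rat 0 1)
  Sz := (.add (.add (.add (.add (.mul (.rat (1) 3) (.var 0)) (.mul (.rat (1) 9) (.pow (.var 0) 2))) (.mul (.rat (5) 81) (.pow (.var 0) 3))) (.mul (.rat (10) 243) (.pow (.var 0) 4))) (.mul (.rat (22) 729) (.pow (.var 0) 5)))
  a0 := 500
  b0 := 557
  c0 := 782
  bRho := (0, 23, 100)
  bBeta := (0, 4, 4)
  bT := (89, 90, 200)
  bKap := (0, 24, 16)
  bEps := (0, 1, 1000)
  bSig := (0, 283, 1000)
  bNu := (0, 817, 1000)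
  bTh := (0, 8, 100)
  bZ := (0, 3159, 4000)
  tX := tX_0
  tY1 := tY1_0
  tY2 := tY2_0
  tM1 := (.leaf [11, 78, 547] [6, 6, 6])
  tM2 := (.leaf [10, 71, 498] [6, 6, 6])
  tN1 := (.leaf [13, 92, 645] [6, 6, 6])
  tN2 := (.leaf [12, 85, 596] [6, 6, 6])
  tQ1 := tQ1_0
  tQ2 := (.leaf [604, 13289, 212625, 2338876] [21, 15, 10, 15])
  tW := (.leaf [58, 523] [8, 8])
  tK := (.leaf [127, 890] [6, 5])
  tS1 := (.leaf [89, 446] [4, 4])
  tS2 := (.leaf [95, 476] [4, 4])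
  tC := (.leaf [77, 309, 1237] [3, 3, 4])
  tXi := (.leaf [48, 193] [3, 0])
  tE := (.leaf [1, 2] [0, 0])
  tZ := (.leaf [226] [15])

/-- the further data -/
def X : Ext where
  rho0 := (23, 100)
  bR3 := (184, 800, 800)
  bRW := (0, 1, 1)
  tQ3 := tQ3_0

def btQ1_root : List (ℤ × ℤ × ℕ) := [C.bRho, C.bBeta, C.bT, C.bKap]

def btQ1_0l : List (ℤ × ℤ × ℕ) := btQ1_root.set 3 ((btQ1_root.getD 3 (0, 1, 1)).1, (12), (btQ1_root.getD 3 (0, 1, 1)).2.2)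

def btQ1_0r : List (ℤ × ℤ × ℕ) := btQ1_root.set 3 ((12), (btQ1_root.getD 3 (0, 1, 1)).2.1, (btQ1_root.getD 3 (0, 1, 1)).2.2)

def btQ3_root : List (ℤ × ℤ × ℕ) := [X.bR3, C.bBeta, C.bT, C.bTh]

def btQ3_0l : List (ℤ × ℤ × ℕ) := btQ3_root.set 1 ((btQ3_root.getD 1 (0, 1, 1)).1, (2), (btQ3_root.getD 1 (0, 1, 1)).2.2)

def btQ3_0r : List (ℤ × ℤ × ℕ) := btQ3_root.set 1 ((2), (btQ3_root.getD 1 (0, 1, 1)).2.1, (btQ3_root.getD 1 (0, 1, 1)).2.2)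

def btQ3_1l : List (ℤ × ℤ × ℕ) := btQ3_0l.set 0 ((btQ3_0l.getD 0 (0, 1, 1)).1, (492), (btQ3_0l.getD 0 (0, 1, 1)).2.2)

def btQ3_1r : List (ℤ × ℤ × ℕ) := btQ3_0l.set 0 ((492), (btQ3_0l.getD 0 (0, 1, 1)).2.1, (btQ3_0l.getD 0 (0, 1, 1)).2.2)

def btQ3_4l : List (ℤ × ℤ × ℕ) := btQ3_0r.set 0 ((btQ3_0r.getD 0 (0, 1, 1)).1, (492), (btQ3_0r.getD 0 (0, 1, 1)).2.2)

def btQ3_4r : List (ℤ × ℤ × ℕ) := btQ3_0r.set 0 ((492), (btQ3_0r.getD 0 (0, 1, 1)).2.1, (btQ3_0r.getD 0 (0, 1, 1)).2.2)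

def btQ3_5l : List (ℤ × ℤ × ℕ) := btQ3_4l.set 1 ((btQ3_4l.getD 1 (0, 1, 1)).1, (3), (btQ3_4l.getD 1 (0, 1, 1)).2.2)

def btQ3_5r : List (ℤ × ℤ × ℕ) := btQ3_4l.set 1 ((3), (btQ3_4l.getD 1 (0, 1, 1)).2.1, (btQ3_4l.getD 1 (0, 1, 1)).2.2)

end Vale.Agent.Lib.P154.Neg.B4500
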